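import Vale.Agent.P281.H737.C.Null0
import Vale.Agent.P281.H603.C.Ctx

/-! P281, class C, row CN (helper737): `NullStmt`. -/

open Set Filter Metric MeasureTheory Vale.Agent.P281 Vale.Agent.P281.H713 Vale.Agent.P272.K
open scoped Topology ContDiff Manifold

noncomputable section

namespace Vale.Agent.P281.H737.C

/-- **CN**: the exceptional locus is a null set in the fibres. -/
theorem null : H603.C.NullStmt := by
  intro p d Z Y _ _ _ _ _ _ _ _ f C E Γ _ _ _ _ 𝓕 q χ E₁ Γ₁ _ _ _ _ 𝓕₁ q₁ χ₁ t t₁ hC hM hM₁ ht ht₁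
    hoff hbase i
  have hb : Function.Bijective (mfderiv 𝓘(ℂ, Cm p) 𝓘(ℂ, Cm p) C.v (χ₁.symm t₁)) := by
    by_contra h
    exact hoff h
  exact null_core hC.hf hC.hf₁ hC.hu hC.hv
    (fun z z' h h' => hC.mv.inj z z' h fun hz => hz h') hC.comm hM hM₁ ht ht₁ hb hbase i

end Vale.Agent.P281.H737.C
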