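import Vale.Agent.P281.H64.TK.SpecG
import Mathlib.MeasureTheory.Function.Jacobian

/-! P281, class C (helper737): the exceptional locus is a null set in the fibres (core). -/

open Set Filter Metric MeasureTheory Vale.Agent.P281 Vale.Agent.P281.H713 Vale.Agent.P272.K
open Vale.Agent.P281.H64.TK
open scoped Topology ContDiff Manifold

set_option linter.all false

noncomputable section

namespace Vale.Agent.P281.H737.C

theorem det_zero {V : Type} [NormedAddCommGroup V] [NormedSpace ℝ V] [FiniteDimensional ℝ V]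
    (A : V →L[ℝ] V) {η : V} (hη : η ≠ 0) (h : A η = 0) : A.det = 0 := by
  by_contra hne
  let e := LinearMap.equivOfDetNeZero (A : V →ₗ[ℝ] V) hne
  have h1 : e η = 0 := h
  exact hη (e.map_eq_zero_iff.1 h1)

theorem null_core {p d : ℕ} {Z Y Z₁ Y₁ : Type} [TopologicalSpace Z] [ChartedSpace (Cm (p + d)) Z]
    [IsManifold 𝓘(ℂ, Cm (p + d)) ω Z] [TopologicalSpace Y] [ChartedSpace (Cm p) Y]
    [IsManifold 𝓘(ℂ, Cm p) ω Y] [TopologicalSpace Z₁] [ChartedSpace (Cm (p + d)) Z₁]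
    [IsManifold 𝓘(ℂ, Cm (p + d)) ω Z₁] [TopologicalSpace Y₁] [ChartedSpace (Cm p) Y₁]
    [IsManifold 𝓘(ℂ, Cm p) ω Y₁] {f : Z → Y} {f₁ : Z₁ → Y₁} {u : Z₁ → Z} {v : Y₁ → Y}
    (hf : ContMDiff 𝓘(ℂ, Cm (p + d)) 𝓘(ℂ, Cm p) ω f)
    (hf₁ : ContMDiff 𝓘(ℂ, Cm (p + d)) 𝓘(ℂ, Cm p) ω f₁)
    (hu : ContMDiff 𝓘(ℂ, Cm (p + d)) 𝓘(ℂ, Cm (p + d)) ω u)
    (hv : ContMDiff 𝓘(ℂ, Cm p) 𝓘(ℂ, Cm p) ω v)
    (hinj : ∀ z z', v z = v z' →
      Function.Bijective (mfderiv 𝓘(ℂ, Cm p) 𝓘(ℂ, Cm p) v z) → z = z')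
    (hcomm : ∀ x, f (u x) = v (f₁ x))
    {E Γ : Type} [TopologicalSpace E] [Group Γ] [MulAction Γ E] [ContinuousConstSMul Γ E]
    {𝓕 : Fam p d E Γ} {q : Cm p → E → Z} {χ : OpenPartialHomeomorph Y (Cm p)}
    {E₁ Γ₁ : Type} [TopologicalSpace E₁] [Group Γ₁] [MulAction Γ₁ E₁] [ContinuousConstSMul Γ₁ E₁]
    {𝓕₁ : Fam p d E₁ Γ₁} {q₁ : Cm p → E₁ → Z₁} {χ₁ : OpenPartialHomeomorph Y₁ (Cm p)}
    (hM : Model (n := p + d) f 𝓕 χ q) (hM₁ : Model (n := p + d) f₁ 𝓕₁ χ₁ q₁)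
    {t t₁ : Cm p} (ht : t ∈ 𝓕.T) (ht₁ : t₁ ∈ 𝓕₁.T)
    (hb : Function.Bijective (mfderiv 𝓘(ℂ, Cm p) 𝓘(ℂ, Cm p) v (χ₁.symm t₁)))
    (hbase : v (χ₁.symm t₁) = χ.symm t) (i : Fin 𝓕.N) :
    volume {z : Cm d | z ∈ ball (0 : Cm d) 3 ∧ q t (𝓕.σ i t z) ∈
      u '' {x | ¬ Function.Bijective (mfderiv 𝓘(ℂ, Cm (p + d)) 𝓘(ℂ, Cm (p + d)) u x)}} = 0 := by
  classical
  refine measure_null_of_locally_null _ fun z₀ hz₀ => ?_
  obtain ⟨ζ, hζ, hζz, hζe⟩ := hM.coord i t ht z₀ hz₀.1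
  set sl : Cm d → Z := fun z => q t (𝓕.σ i t z) with hsl
  have hsli : ContMDiffAt 𝓘(ℂ, Cm d) 𝓘(ℂ, Cm p × Cm d) ω (fun z : Cm d => (t, z)) z₀ :=
    (contDiff_const.prodMk contDiff_id).contDiffAt.contMDiffAt
  have hslc : ContMDiffAt 𝓘(ℂ, Cm d) 𝓘(ℂ, Cm (p + d)) ω sl z₀ :=
    ContMDiffAt.comp (g := fun r : Cm p × Cm d => q r.1 (𝓕.σ i r.1 r.2))
      (f := fun z : Cm d => (t, z)) z₀ (hM.hol i t ht z₀ hz₀.1) hsli
  have hslt : Tendsto sl (𝓝 z₀) (𝓝 (sl z₀)) := hslc.continuousAt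
  have e1 : ∀ᶠ z in 𝓝 z₀, ContMDiffAt 𝓘(ℂ, Cm (p + d)) 𝓘(ℂ, Cm d) ω ζ (sl z) :=
    hslt.eventually ((contMDiffAt_iff_contMDiffAt_nhds (by simp)).1 hζ)
  have e2 := hslt.eventually hζe
  have e3 : ∀ᶠ z in 𝓝 z₀, z ∈ ball (0 : Cm d) 3 := isOpen_ball.mem_nhds hz₀.1
  have e4 : ∀ᶠ z in 𝓝 z₀, ζ (sl z) ∈ ball (0 : Cm d) 3 := by
    have h1 : Tendsto (fun z => ζ (sl z)) (𝓝 z₀) (𝓝 (ζ (sl z₀))) :=
      (hζ.continuousAt.tendsto).comp hslt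
    exact h1.eventually (isOpen_ball.mem_nhds (by rw [hsl, hζz]; exact hz₀.1))
  have e5 : ∀ᶠ z in 𝓝 z₀, ContMDiffAt 𝓘(ℂ, Cm (p + d)) 𝓘(ℂ, Cm d) ω ζ (sl z) ∧
      ζ (sl z) = z := by
    filter_upwards [e1, e2, e3, e4] with z g1 g2 g3 g4
    refine ⟨g1, ?_⟩
    have h1 : χ (f (sl z)) = t := by
      rw [hsl]
      show χ (f (q t (𝓕.σ i t z))) = t
      rw [hM.fib t ht, χ.right_inv (hM.sub ht)]
    rw [h1] at g2
    obtain ⟨γ, hγ⟩ := (hM.eq t ht _ _).1 g2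
    exact (𝓕.inj i t ht _ g4 _ g3 γ hγ).2
  -- the images
  set x₁ : Fin 𝓕₁.N → Cm d → Z₁ := fun j z => q₁ t₁ (𝓕₁.σ j t₁ z) with hx₁
  set s : Fin 𝓕₁.N → Set (Cm d) := fun j => {z | z ∈ ball (0 : Cm d) 3 ∧
    ¬ Function.Bijective (mfderiv 𝓘(ℂ, Cm (p + d)) 𝓘(ℂ, Cm (p + d)) u (x₁ j z)) ∧
    ContMDiffAt 𝓘(ℂ, Cm (p + d)) 𝓘(ℂ, Cm d) ω ζ (u (x₁ j z))} with hs
  set θ : Fin 𝓕₁.N → Cm d → Cm d := fun j z => ζ (u (x₁ j z)) with hθ
  refine ⟨_, inter_mem_nhdsWithin _ e5, measure_mono_null (t := ⋃ j, θ j '' s j) ?_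
    (measure_iUnion_null fun j => ?_)⟩
  · rintro z ⟨⟨hz, x, hx, hxz⟩, h5, h6⟩
    set y₁ := χ₁.symm t₁ with hy₁
    have h1 : f₁ x = y₁ := by
      refine (hinj y₁ (f₁ x) ?_ hb).symm
      rw [hbase, ← hcomm, hxz, hM.fib t ht]
    have h2 : y₁ ∈ χ₁.source := χ₁.map_target (hM₁.sub ht₁)
    have h3 : χ₁ (f₁ x) = t₁ := by rw [h1, hy₁, χ₁.right_inv (hM₁.sub ht₁)]
    obtain ⟨e, he⟩ := hM₁.surj x (by rw [h1]; exact h2) (by rw [h3]; exact ht₁)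
    rw [h3] at he
    obtain ⟨γ, j, z₁, hz₁, hγ⟩ := 𝓕₁.cover t₁ ht₁ e
    have h4 : x₁ j z₁ = x := by
      rw [← he]
      exact (hM₁.eq t₁ ht₁ _ _).2 ⟨γ, hγ⟩
    have h7 : u (x₁ j z₁) = sl z := by rw [h4]; exact hxz
    rw [mem_iUnion]
    refine ⟨j, z₁, ⟨?_, ?_, ?_⟩, ?_⟩
    · rw [mem_ball_zero_iff]
      linarith
    · rw [h4]
      exact hx
    · rw [h7]
      exact h5
    · show ζ (u (x₁ j z₁)) = z
      rw [h7, h6]
  · -- the determinant vanishes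
    have key : ∀ z ∈ s j, DifferentiableAt ℂ (θ j) z ∧ ∃ η : Cm d, η ≠ 0 ∧
        fderiv ℂ (θ j) z η = 0 := by
      rintro z ⟨hz, hnb, hζx⟩
      have k0 : f₁ (x₁ j z) = χ₁.symm t₁ := hM₁.fib t₁ ht₁ _
      set Q : Cm p × Cm d → Z₁ := fun r => q₁ r.1 (𝓕₁.σ j r.1 r.2) with hQ
      have hQc : ContMDiffAt 𝓘(ℂ, Cm p × Cm d) 𝓘(ℂ, Cm (p + d)) ω Q (t₁, z) :=
        hM₁.hol j t₁ ht₁ z hz
      have hιc : ContMDiffAt 𝓘(ℂ, Cm d) 𝓘(ℂ, Cm p × Cm d) ω (fun z : Cm d => (t₁, z)) z :=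
        (contDiff_const.prodMk contDiff_id).contDiffAt.contMDiffAt
      have hxc : ContMDiffAt 𝓘(ℂ, Cm d) 𝓘(ℂ, Cm (p + d)) ω (x₁ j) z :=
        ContMDiffAt.comp (g := Q) (f := fun z : Cm d => (t₁, z)) z hQc hιc
      have hux : ContMDiffAt 𝓘(ℂ, Cm d) 𝓘(ℂ, Cm (p + d)) ω (fun z => u (x₁ j z)) z :=
        ContMDiffAt.comp (g := u) (f := x₁ j) z (hu _) hxc
      have hθc : ContMDiffAt 𝓘(ℂ, Cm d) 𝓘(ℂ, Cm d) ω (θ j) z :=
        ContMDiffAt.comp (g := ζ) (f := fun z => u (x₁ j z)) z hζx hux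
      refine ⟨(hθc.mdifferentiableAt (by simp)).differentiableAt, ?_⟩
      -- the kernel of `du`
      have k1 : ∃ ξ : Cm (p + d), ξ ≠ 0 ∧
          mfderiv 𝓘(ℂ, Cm (p + d)) 𝓘(ℂ, Cm (p + d)) u (x₁ j z) ξ = 0 := by
        set A : Cm (p + d) →L[ℂ] Cm (p + d) :=
          mfderiv 𝓘(ℂ, Cm (p + d)) 𝓘(ℂ, Cm (p + d)) u (x₁ j z) with hA
        by_contra hcon
        push Not at hcon
        have h1 : Function.Injective A := by
          rw [injective_iff_map_eq_zero]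
          intro ξ hξ
          by_contra h2
          exact hcon ξ h2 hξ
        exact hnb ⟨h1, (LinearMap.injective_iff_surjective (f := (A : Cm (p + d) →ₗ[ℂ] Cm (p + d)))).1 h1⟩
      obtain ⟨ξ, hξ0, hξ⟩ := k1
      have k2 : mfderiv 𝓘(ℂ, Cm (p + d)) 𝓘(ℂ, Cm p) f₁ (x₁ j z) ξ = 0 := by
        have h1 := mfderiv_comp_apply (x₁ j z) (g := f) (f := u)
          ((hf _).mdifferentiableAt (by simp)) ((hu _).mdifferentiableAt (by simp)) ξ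
        have h2 := mfderiv_comp_apply (x₁ j z) (g := v) (f := f₁)
          ((hv _).mdifferentiableAt (by simp)) ((hf₁ _).mdifferentiableAt (by simp)) ξ
        have h3 : f ∘ u = v ∘ f₁ := funext hcomm
        rw [h3, hξ] at h1
        rw [h1] at h2
        have h4 : mfderiv 𝓘(ℂ, Cm p) 𝓘(ℂ, Cm p) v (f₁ (x₁ j z))
            (mfderiv 𝓘(ℂ, Cm (p + d)) 𝓘(ℂ, Cm p) f₁ (x₁ j z) ξ) = 0 := by
          rw [← h2]
          exact map_zero _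
        have h5 : Function.Injective (mfderiv 𝓘(ℂ, Cm p) 𝓘(ℂ, Cm p) v (f₁ (x₁ j z))) := by
          rw [k0]
          exact hb.1
        exact (injective_iff_map_eq_zero _).1 h5 _ h4
      obtain ⟨ζ₁, hζ₁, hζ₁z, hζ₁e⟩ := hM₁.coord j t₁ ht₁ z hz
      have hχ : ContMDiffAt 𝓘(ℂ, Cm p) 𝓘(ℂ, Cm p) ω χ₁ (f₁ (x₁ j z)) :=
        contMDiffAt_of_mem_maximalAtlas (IsManifold.subset_maximalAtlas hM₁.atlas)
          (by rw [k0]; exact χ₁.map_target (hM₁.sub ht₁))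
      have hχf : ContMDiffAt 𝓘(ℂ, Cm (p + d)) 𝓘(ℂ, Cm p) ω (fun x => χ₁ (f₁ x)) (x₁ j z) :=
        ContMDiffAt.comp (g := χ₁) (f := f₁) _ hχ (hf₁ _)
      set g : Z₁ → Cm p × Cm d := fun x => (χ₁ (f₁ x), ζ₁ x) with hg
      have hgc : ContMDiffAt 𝓘(ℂ, Cm (p + d)) 𝓘(ℂ, Cm p × Cm d) ω g (x₁ j z) :=
        hχf.prodMk_space hζ₁
      have hgx : g (x₁ j z) = (t₁, z) := by
        refine Prod.ext ?_ hζ₁z
        show χ₁ (f₁ (x₁ j z)) = t₁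
        rw [k0, χ₁.right_inv (hM₁.sub ht₁)]
      have hgm := hgc.mdifferentiableAt (n := ω) (by simp)
      set a : Cm p × Cm d := mfderiv 𝓘(ℂ, Cm (p + d)) 𝓘(ℂ, Cm p × Cm d) g (x₁ j z) ξ with ha
      have k3 : a.1 = 0 := by
        have h1 := mfderiv_comp_apply (I' := 𝓘(ℂ, Cm p × Cm d)) (x₁ j z)
          (g := (Prod.fst : Cm p × Cm d → Cm p)) (f := g)
          (differentiableAt_fst (𝕜 := ℂ)).mdifferentiableAt hgm ξ
        have h2 : mfderiv 𝓘(ℂ, Cm p × Cm d) 𝓘(ℂ, Cm p) (Prod.fst : Cm p × Cm d → Cm p)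
            (g (x₁ j z)) a = a.1 := by
          rw [mfderiv_eq_fderiv, fderiv_fst]
          rfl
        have h3 : (Prod.fst ∘ g) = fun x => χ₁ (f₁ x) := rfl
        have h4 := mfderiv_comp_apply (x₁ j z) (g := χ₁) (f := f₁)
          (hχ.mdifferentiableAt (by simp)) ((hf₁ _).mdifferentiableAt (by simp)) ξ
        rw [k2] at h4
        have h5 : mfderiv 𝓘(ℂ, Cm (p + d)) 𝓘(ℂ, Cm p) (fun x => χ₁ (f₁ x)) (x₁ j z) ξ = 0 := by
          refine Eq.trans h4 ?_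
          exact map_zero _
        rw [h3, h5] at h1
        rw [← h2]
        exact h1.symm
      have k4 : mfderiv 𝓘(ℂ, Cm p × Cm d) 𝓘(ℂ, Cm (p + d)) Q (t₁, z) a = ξ := by
        have h0 : MDifferentiableAt 𝓘(ℂ, Cm p × Cm d) 𝓘(ℂ, Cm (p + d)) Q (g (x₁ j z)) := by
          rw [hgx]
          exact hQc.mdifferentiableAt (by simp)
        have h1 := mfderiv_comp_apply (I' := 𝓘(ℂ, Cm p × Cm d)) (x₁ j z) (g := Q) (f := g)
          h0 hgm ξ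
        have h2 : (Q ∘ g) =ᶠ[𝓝 (x₁ j z)] id := hζ₁e
        rw [h2.mfderiv_eq, mfderiv_id, hgx] at h1
        exact h1.symm
      have k5 : mfderiv 𝓘(ℂ, Cm d) 𝓘(ℂ, Cm (p + d)) (x₁ j) z a.2 = ξ := by
        have h1 := mfderiv_comp_apply (I' := 𝓘(ℂ, Cm p × Cm d)) z (g := Q)
          (f := fun z : Cm d => (t₁, z)) (hQc.mdifferentiableAt (by simp))
          (hιc.mdifferentiableAt (by simp)) a.2
        have h2 : mfderiv 𝓘(ℂ, Cm d) 𝓘(ℂ, Cm p × Cm d) (fun z : Cm d => (t₁, z)) z a.2 =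
            ((0 : Cm p), a.2) := by
          rw [mfderiv_eq_fderiv]
          have h3 : HasFDerivAt (fun z : Cm d => (t₁, z))
              ((0 : Cm d →L[ℂ] Cm p).prod (ContinuousLinearMap.id ℂ (Cm d))) z :=
            (hasFDerivAt_const t₁ z).prodMk (hasFDerivAt_id z)
          rw [h3.fderiv]
          rfl
        have h4 : ((0 : Cm p), a.2) = a := Prod.ext k3.symm rfl
        rw [h2, h4, k4] at h1
        exact h1
      refine ⟨a.2, fun h => hξ0 ?_, ?_⟩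
      · rw [← k5, h]
        exact map_zero _
      · have h1 := mfderiv_comp_apply z (g := ζ) (f := fun z => u (x₁ j z))
          (hζx.mdifferentiableAt (by simp)) (hux.mdifferentiableAt (by simp)) a.2
        have h2 := mfderiv_comp_apply z (g := u) (f := x₁ j)
          ((hu _).mdifferentiableAt (by simp)) (hxc.mdifferentiableAt (by simp)) a.2
        rw [k5, hξ] at h2
        have h3 : mfderiv 𝓘(ℂ, Cm d) 𝓘(ℂ, Cm (p + d)) (fun z => u (x₁ j z)) z a.2 = 0 := h2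
        rw [h3] at h1
        rw [← mfderiv_eq_fderiv]
        refine Eq.trans h1 ?_
        exact map_zero _
    refine MeasureTheory.addHaar_image_eq_zero_of_det_fderivWithin_eq_zero volume
      (f' := fun z => (fderiv ℂ (θ j) z).restrictScalars ℝ)
      (fun z hz => ((key z hz).1.hasFDerivAt.restrictScalars ℝ).hasFDerivWithinAt) fun z hz => ?_
    obtain ⟨η, hη, h⟩ := (key z hz).2
    exact det_zero _ hη h

end Vale.Agent.P281.H737.C
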